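import Vale.Agent.P098.Exact.D5.Boundary

/-! Two polynomial bounds for the restriction of the dimension five table to dimension four. -/

noncomputable section

namespace Vale.Agent.P098.Exact.D4

open D5

/-- Bound polynomial at a gradient along the axis. -/
def g0 (t w : ℝ) : ℝ := (240 : ℝ) + (-90 : ℝ) * w + (-47 : ℝ) * w ^ 2 + (175 : ℝ) * w ^ 3 + (47 : ℝ) * t + (21 : ℝ) * t * w + (29 : ℝ) * t * w ^ 2 + (-151 : ℝ) * t * w ^ 3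

/-- Bound polynomial at a gradient in an eigenplane. -/
def g1 (x w : ℝ) : ℝ := (217 : ℝ) + (85 : ℝ) * w + (-24 : ℝ) * w ^ 2 + (206 : ℝ) * x + (195 : ℝ) * x * w + (-320 : ℝ) * x * w ^ 2 + (-373/2 : ℝ) * x ^ 2 + (373/2 : ℝ) * x ^ 2 * w ^ 2 + (-182 : ℝ) * x ^ 3 + (-390 : ℝ) * x ^ 3 * w + (410 : ℝ) * x ^ 3 * w ^ 2 + (-108 : ℝ) * x ^ 4 + (108 : ℝ) * x ^ 4 * w ^ 2 + (462 : ℝ) * x ^ 6 + (-462 : ℝ) * x ^ 6 * w ^ 2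

theorem g1_box0 {x w : ℝ} (ha : (-41 / 50 : ℝ) ≤ x) (hb : x ≤ (0 : ℝ)) (hc : (0 : ℝ) ≤ w) (hd : w ≤ (1 : ℝ)) :
    g1 x w ≤ 320 := by
  have e : 320 - g1 x w =
      (3208620185658 / 4750104241 : ℝ) * ((x - (-41 / 50 : ℝ)) ^ 0 * ((0 : ℝ) - x) ^ 6 * ((w - (0 : ℝ)) ^ 0 * ((1 : ℝ) - w) ^ 2))
      + (4227654121316 / 4750104241 : ℝ) * ((x - (-41 / 50 : ℝ)) ^ 0 * ((0 : ℝ) - x) ^ 6 * ((w - (0 : ℝ)) ^ 1 * ((1 : ℝ) - w) ^ 1))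
      + (298412250000 / 4750104241 : ℝ) * ((x - (-41 / 50 : ℝ)) ^ 0 * ((0 : ℝ) - x) ^ 6 * ((w - (0 : ℝ)) ^ 2 * ((1 : ℝ) - w) ^ 0))
      + (27512840190000 / 4750104241 : ℝ) * ((x - (-41 / 50 : ℝ)) ^ 1 * ((0 : ℝ) - x) ^ 5 * ((w - (0 : ℝ)) ^ 0 * ((1 : ℝ) - w) ^ 2))
      + (49469421630000 / 4750104241 : ℝ) * ((x - (-41 / 50 : ℝ)) ^ 1 * ((0 : ℝ) - x) ^ 5 * ((w - (0 : ℝ)) ^ 1 * ((1 : ℝ) - w) ^ 1))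
      + (4939611750000 / 4750104241 : ℝ) * ((x - (-41 / 50 : ℝ)) ^ 1 * ((0 : ℝ) - x) ^ 5 * ((w - (0 : ℝ)) ^ 2 * ((1 : ℝ) - w) ^ 0))
      + (58349965970000 / 4750104241 : ℝ) * ((x - (-41 / 50 : ℝ)) ^ 2 * ((0 : ℝ) - x) ^ 4 * ((w - (0 : ℝ)) ^ 0 * ((1 : ℝ) - w) ^ 2))
      + (111682735690000 / 4750104241 : ℝ) * ((x - (-41 / 50 : ℝ)) ^ 2 * ((0 : ℝ) - x) ^ 4 * ((w - (0 : ℝ)) ^ 1 * ((1 : ℝ) - w) ^ 1))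
      + (16034924250000 / 4750104241 : ℝ) * ((x - (-41 / 50 : ℝ)) ^ 2 * ((0 : ℝ) - x) ^ 4 * ((w - (0 : ℝ)) ^ 2 * ((1 : ℝ) - w) ^ 0))
      + (64850959750000 / 4750104241 : ℝ) * ((x - (-41 / 50 : ℝ)) ^ 3 * ((0 : ℝ) - x) ^ 3 * ((w - (0 : ℝ)) ^ 0 * ((1 : ℝ) - w) ^ 2))
      + (124763895750000 / 4750104241 : ℝ) * ((x - (-41 / 50 : ℝ)) ^ 3 * ((0 : ℝ) - x) ^ 3 * ((w - (0 : ℝ)) ^ 1 * ((1 : ℝ) - w) ^ 1))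
      + (22107474750000 / 4750104241 : ℝ) * ((x - (-41 / 50 : ℝ)) ^ 3 * ((0 : ℝ) - x) ^ 3 * ((w - (0 : ℝ)) ^ 2 * ((1 : ℝ) - w) ^ 0))
      + (39296915625000 / 4750104241 : ℝ) * ((x - (-41 / 50 : ℝ)) ^ 4 * ((0 : ℝ) - x) ^ 2 * ((w - (0 : ℝ)) ^ 0 * ((1 : ℝ) - w) ^ 2))
      + (71164143750000 / 4750104241 : ℝ) * ((x - (-41 / 50 : ℝ)) ^ 4 * ((0 : ℝ) - x) ^ 2 * ((w - (0 : ℝ)) ^ 1 * ((1 : ℝ) - w) ^ 1))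
      + (15032812500000 / 4750104241 : ℝ) * ((x - (-41 / 50 : ℝ)) ^ 4 * ((0 : ℝ) - x) ^ 2 * ((w - (0 : ℝ)) ^ 2 * ((1 : ℝ) - w) ^ 0))
      + (12295625000000 / 4750104241 : ℝ) * ((x - (-41 / 50 : ℝ)) ^ 5 * ((0 : ℝ) - x) ^ 1 * ((w - (0 : ℝ)) ^ 0 * ((1 : ℝ) - w) ^ 2))
      + (19120937500000 / 4750104241 : ℝ) * ((x - (-41 / 50 : ℝ)) ^ 5 * ((0 : ℝ) - x) ^ 1 * ((w - (0 : ℝ)) ^ 1 * ((1 : ℝ) - w) ^ 1))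
      + (4975312500000 / 4750104241 : ℝ) * ((x - (-41 / 50 : ℝ)) ^ 5 * ((0 : ℝ) - x) ^ 1 * ((w - (0 : ℝ)) ^ 2 * ((1 : ℝ) - w) ^ 0))
      + (1609375000000 / 4750104241 : ℝ) * ((x - (-41 / 50 : ℝ)) ^ 6 * ((0 : ℝ) - x) ^ 0 * ((w - (0 : ℝ)) ^ 0 * ((1 : ℝ) - w) ^ 2))
      + (1890625000000 / 4750104241 : ℝ) * ((x - (-41 / 50 : ℝ)) ^ 6 * ((0 : ℝ) - x) ^ 0 * ((w - (0 : ℝ)) ^ 1 * ((1 : ℝ) - w) ^ 1))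
      + (656250000000 / 4750104241 : ℝ) * ((x - (-41 / 50 : ℝ)) ^ 6 * ((0 : ℝ) - x) ^ 0 * ((w - (0 : ℝ)) ^ 2 * ((1 : ℝ) - w) ^ 0)) := by
    simp only [g1]
    ring
  suffices 0 ≤ 320 - g1 x w by linarith
  rw [e]
  repeat' apply add_nonneg
  all_goals exact mul_nonneg (by norm_num) (mul_nonneg
    (mul_nonneg (pow_nonneg (sub_nonneg.2 ha) _) (pow_nonneg (sub_nonneg.2 hb) _))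
    (mul_nonneg (pow_nonneg (sub_nonneg.2 hc) _) (pow_nonneg (sub_nonneg.2 hd) _)))

theorem g1_box1 {x w : ℝ} (ha : (0 : ℝ) ≤ x) (hb : x ≤ (41 / 50 : ℝ)) (hc : (0 : ℝ) ≤ w) (hd : w ≤ (1 / 2 : ℝ)) :
    g1 x w ≤ 320 := by
  have e : 320 - g1 x w =
      (6437500000000 / 4750104241 : ℝ) * ((x - (0 : ℝ)) ^ 0 * ((41 / 50 : ℝ) - x) ^ 6 * ((w - (0 : ℝ)) ^ 0 * ((1 / 2 : ℝ) - w) ^ 2))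
      + (10218750000000 / 4750104241 : ℝ) * ((x - (0 : ℝ)) ^ 0 * ((41 / 50 : ℝ) - x) ^ 6 * ((w - (0 : ℝ)) ^ 1 * ((1 / 2 : ℝ) - w) ^ 1))
      + (4156250000000 / 4750104241 : ℝ) * ((x - (0 : ℝ)) ^ 0 * ((41 / 50 : ℝ) - x) ^ 6 * ((w - (0 : ℝ)) ^ 2 * ((1 / 2 : ℝ) - w) ^ 0))
      + (28067500000000 / 4750104241 : ℝ) * ((x - (0 : ℝ)) ^ 1 * ((41 / 50 : ℝ) - x) ^ 5 * ((w - (0 : ℝ)) ^ 0 * ((1 / 2 : ℝ) - w) ^ 2))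
      + (35200625000000 / 4750104241 : ℝ) * ((x - (0 : ℝ)) ^ 1 * ((41 / 50 : ℝ) - x) ^ 5 * ((w - (0 : ℝ)) ^ 1 * ((1 / 2 : ℝ) - w) ^ 1))
      + (13483125000000 / 4750104241 : ℝ) * ((x - (0 : ℝ)) ^ 1 * ((41 / 50 : ℝ) - x) ^ 5 * ((w - (0 : ℝ)) ^ 2 * ((1 / 2 : ℝ) - w) ^ 0))
      + (51612662500000 / 4750104241 : ℝ) * ((x - (0 : ℝ)) ^ 2 * ((41 / 50 : ℝ) - x) ^ 4 * ((w - (0 : ℝ)) ^ 0 * ((1 / 2 : ℝ) - w) ^ 2))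
      + (38397200000000 / 4750104241 : ℝ) * ((x - (0 : ℝ)) ^ 2 * ((41 / 50 : ℝ) - x) ^ 4 * ((w - (0 : ℝ)) ^ 1 * ((1 / 2 : ℝ) - w) ^ 1))
      + (10950121875000 / 4750104241 : ℝ) * ((x - (0 : ℝ)) ^ 2 * ((41 / 50 : ℝ) - x) ^ 4 * ((w - (0 : ℝ)) ^ 2 * ((1 / 2 : ℝ) - w) ^ 0))
      + (60797461000000 / 4750104241 : ℝ) * ((x - (0 : ℝ)) ^ 3 * ((41 / 50 : ℝ) - x) ^ 3 * ((w - (0 : ℝ)) ^ 0 * ((1 / 2 : ℝ) - w) ^ 2))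
      + (25220969500000 / 4750104241 : ℝ) * ((x - (0 : ℝ)) ^ 3 * ((41 / 50 : ℝ) - x) ^ 3 * ((w - (0 : ℝ)) ^ 1 * ((1 / 2 : ℝ) - w) ^ 1))
      + (1553644750000 / 4750104241 : ℝ) * ((x - (0 : ℝ)) ^ 3 * ((41 / 50 : ℝ) - x) ^ 3 * ((w - (0 : ℝ)) ^ 2 * ((1 / 2 : ℝ) - w) ^ 0))
      + (59880729880000 / 4750104241 : ℝ) * ((x - (0 : ℝ)) ^ 4 * ((41 / 50 : ℝ) - x) ^ 2 * ((w - (0 : ℝ)) ^ 0 * ((1 / 2 : ℝ) - w) ^ 2))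
      + (50108352260000 / 4750104241 : ℝ) * ((x - (0 : ℝ)) ^ 4 * ((41 / 50 : ℝ) - x) ^ 2 * ((w - (0 : ℝ)) ^ 1 * ((1 / 2 : ℝ) - w) ^ 1))
      + (13736569410000 / 4750104241 : ℝ) * ((x - (0 : ℝ)) ^ 4 * ((41 / 50 : ℝ) - x) ^ 2 * ((w - (0 : ℝ)) ^ 2 * ((1 / 2 : ℝ) - w) ^ 0))
      + (42107226760000 / 4750104241 : ℝ) * ((x - (0 : ℝ)) ^ 5 * ((41 / 50 : ℝ) - x) ^ 1 * ((w - (0 : ℝ)) ^ 0 * ((1 / 2 : ℝ) - w) ^ 2))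
      + (63451971020000 / 4750104241 : ℝ) * ((x - (0 : ℝ)) ^ 5 * ((41 / 50 : ℝ) - x) ^ 1 * ((w - (0 : ℝ)) ^ 1 * ((1 / 2 : ℝ) - w) ^ 1))
      + (24134567070000 / 4750104241 : ℝ) * ((x - (0 : ℝ)) ^ 5 * ((41 / 50 : ℝ) - x) ^ 1 * ((w - (0 : ℝ)) ^ 2 * ((1 / 2 : ℝ) - w) ^ 0))
      + (4263102742632 / 4750104241 : ℝ) * ((x - (0 : ℝ)) ^ 6 * ((41 / 50 : ℝ) - x) ^ 0 * ((w - (0 : ℝ)) ^ 0 * ((1 / 2 : ℝ) - w) ^ 2))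
      + (7592877985264 / 4750104241 : ℝ) * ((x - (0 : ℝ)) ^ 6 * ((41 / 50 : ℝ) - x) ^ 0 * ((w - (0 : ℝ)) ^ 1 * ((1 / 2 : ℝ) - w) ^ 1))
      + (3744751056974 / 4750104241 : ℝ) * ((x - (0 : ℝ)) ^ 6 * ((41 / 50 : ℝ) - x) ^ 0 * ((w - (0 : ℝ)) ^ 2 * ((1 / 2 : ℝ) - w) ^ 0)) := by
    simp only [g1]
    ring
  suffices 0 ≤ 320 - g1 x w by linarith
  rw [e]
  repeat' apply add_nonneg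
  all_goals exact mul_nonneg (by norm_num) (mul_nonneg
    (mul_nonneg (pow_nonneg (sub_nonneg.2 ha) _) (pow_nonneg (sub_nonneg.2 hb) _))
    (mul_nonneg (pow_nonneg (sub_nonneg.2 hc) _) (pow_nonneg (sub_nonneg.2 hd) _)))

theorem g1_box2 {x w : ℝ} (ha : (0 : ℝ) ≤ x) (hb : x ≤ (41 / 100 : ℝ)) (hc : (1 / 2 : ℝ) ≤ w) (hd : w ≤ (1 : ℝ)) :
    g1 x w ≤ 320 := by
  have e : 320 - g1 x w =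
      (266000000000000 / 4750104241 : ℝ) * ((x - (0 : ℝ)) ^ 0 * ((41 / 100 : ℝ) - x) ^ 6 * ((w - (1 / 2 : ℝ)) ^ 0 * ((1 : ℝ) - w) ^ 2))
      + (10000000000000 / 115856201 : ℝ) * ((x - (0 : ℝ)) ^ 0 * ((41 / 100 : ℝ) - x) ^ 6 * ((w - (1 / 2 : ℝ)) ^ 1 * ((1 : ℝ) - w) ^ 1))
      + (168000000000000 / 4750104241 : ℝ) * ((x - (0 : ℝ)) ^ 0 * ((41 / 100 : ℝ) - x) ^ 6 * ((w - (1 / 2 : ℝ)) ^ 2 * ((1 : ℝ) - w) ^ 0))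
      + (1229460000000000 / 4750104241 : ℝ) * ((x - (0 : ℝ)) ^ 1 * ((41 / 100 : ℝ) - x) ^ 5 * ((w - (1 / 2 : ℝ)) ^ 0 * ((1 : ℝ) - w) ^ 2))
      + (44620000000000 / 115856201 : ℝ) * ((x - (0 : ℝ)) ^ 1 * ((41 / 100 : ℝ) - x) ^ 5 * ((w - (1 / 2 : ℝ)) ^ 1 * ((1 : ℝ) - w) ^ 1))
      + (875160000000000 / 4750104241 : ℝ) * ((x - (0 : ℝ)) ^ 1 * ((41 / 100 : ℝ) - x) ^ 5 * ((w - (1 / 2 : ℝ)) ^ 2 * ((1 : ℝ) - w) ^ 0))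
      + (2251351950000000 / 4750104241 : ℝ) * ((x - (0 : ℝ)) ^ 2 * ((41 / 100 : ℝ) - x) ^ 4 * ((w - (1 / 2 : ℝ)) ^ 0 * ((1 : ℝ) - w) ^ 2))
      + (76158600000000 / 115856201 : ℝ) * ((x - (0 : ℝ)) ^ 2 * ((41 / 100 : ℝ) - x) ^ 4 * ((w - (1 / 2 : ℝ)) ^ 1 * ((1 : ℝ) - w) ^ 1))
      + (1855800000000000 / 4750104241 : ℝ) * ((x - (0 : ℝ)) ^ 2 * ((41 / 100 : ℝ) - x) ^ 4 * ((w - (1 / 2 : ℝ)) ^ 2 * ((1 : ℝ) - w) ^ 0))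
      + (2106483058000000 / 4750104241 : ℝ) * ((x - (0 : ℝ)) ^ 3 * ((41 / 100 : ℝ) - x) ^ 3 * ((w - (1 / 2 : ℝ)) ^ 0 * ((1 : ℝ) - w) ^ 2))
      + (62058636000000 / 115856201 : ℝ) * ((x - (0 : ℝ)) ^ 3 * ((41 / 100 : ℝ) - x) ^ 3 * ((w - (1 / 2 : ℝ)) ^ 1 * ((1 : ℝ) - w) ^ 1))
      + (2076260808000000 / 4750104241 : ℝ) * ((x - (0 : ℝ)) ^ 3 * ((41 / 100 : ℝ) - x) ^ 3 * ((w - (1 / 2 : ℝ)) ^ 2 * ((1 : ℝ) - w) ^ 0))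
      + (1125092939640000 / 4750104241 : ℝ) * ((x - (0 : ℝ)) ^ 4 * ((41 / 100 : ℝ) - x) ^ 2 * ((w - (1 / 2 : ℝ)) ^ 0 * ((1 : ℝ) - w) ^ 2))
      + (25722046720000 / 115856201 : ℝ) * ((x - (0 : ℝ)) ^ 4 * ((41 / 100 : ℝ) - x) ^ 2 * ((w - (1 / 2 : ℝ)) ^ 1 * ((1 : ℝ) - w) ^ 1))
      + (1325582424000000 / 4750104241 : ℝ) * ((x - (0 : ℝ)) ^ 4 * ((41 / 100 : ℝ) - x) ^ 2 * ((w - (1 / 2 : ℝ)) ^ 2 * ((1 : ℝ) - w) ^ 0))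
      + (384844505280000 / 4750104241 : ℝ) * ((x - (0 : ℝ)) ^ 5 * ((41 / 100 : ℝ) - x) ^ 1 * ((w - (1 / 2 : ℝ)) ^ 0 * ((1 : ℝ) - w) ^ 2))
      + (6802585440000 / 115856201 : ℝ) * ((x - (0 : ℝ)) ^ 5 * ((41 / 100 : ℝ) - x) ^ 1 * ((w - (1 / 2 : ℝ)) ^ 1 * ((1 : ℝ) - w) ^ 1))
      + (477782424000000 / 4750104241 : ℝ) * ((x - (0 : ℝ)) ^ 5 * ((41 / 100 : ℝ) - x) ^ 1 * ((w - (1 / 2 : ℝ)) ^ 2 * ((1 : ℝ) - w) ^ 0))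
      + (71759029161974 / 4750104241 : ℝ) * ((x - (0 : ℝ)) ^ 6 * ((41 / 100 : ℝ) - x) ^ 0 * ((w - (1 / 2 : ℝ)) ^ 0 * ((1 : ℝ) - w) ^ 2))
      + (1386472460552 / 115856201 : ℝ) * ((x - (0 : ℝ)) ^ 6 * ((41 / 100 : ℝ) - x) ^ 0 * ((w - (1 / 2 : ℝ)) ^ 1 * ((1 : ℝ) - w) ^ 1))
      + (79820808000000 / 4750104241 : ℝ) * ((x - (0 : ℝ)) ^ 6 * ((41 / 100 : ℝ) - x) ^ 0 * ((w - (1 / 2 : ℝ)) ^ 2 * ((1 : ℝ) - w) ^ 0)) := by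
    simp only [g1]
    ring
  suffices 0 ≤ 320 - g1 x w by linarith
  rw [e]
  repeat' apply add_nonneg
  all_goals exact mul_nonneg (by norm_num) (mul_nonneg
    (mul_nonneg (pow_nonneg (sub_nonneg.2 ha) _) (pow_nonneg (sub_nonneg.2 hb) _))
    (mul_nonneg (pow_nonneg (sub_nonneg.2 hc) _) (pow_nonneg (sub_nonneg.2 hd) _)))

theorem g1_box3 {x w : ℝ} (ha : (41 / 100 : ℝ) ≤ x) (hb : x ≤ (41 / 50 : ℝ)) (hc : (1 / 2 : ℝ) ≤ w) (hd : w ≤ (1 : ℝ)) :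
    g1 x w ≤ 320 := by
  have e : 320 - g1 x w =
      (71759029161974 / 4750104241 : ℝ) * ((x - (41 / 100 : ℝ)) ^ 0 * ((41 / 50 : ℝ) - x) ^ 6 * ((w - (1 / 2 : ℝ)) ^ 0 * ((1 : ℝ) - w) ^ 2))
      + (1386472460552 / 115856201 : ℝ) * ((x - (41 / 100 : ℝ)) ^ 0 * ((41 / 50 : ℝ) - x) ^ 6 * ((w - (1 / 2 : ℝ)) ^ 1 * ((1 : ℝ) - w) ^ 1))
      + (79820808000000 / 4750104241 : ℝ) * ((x - (41 / 100 : ℝ)) ^ 0 * ((41 / 50 : ℝ) - x) ^ 6 * ((w - (1 / 2 : ℝ)) ^ 2 * ((1 : ℝ) - w) ^ 0))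
      + (476263844663688 / 4750104241 : ℝ) * ((x - (41 / 100 : ℝ)) ^ 1 * ((41 / 50 : ℝ) - x) ^ 5 * ((w - (1 / 2 : ℝ)) ^ 0 * ((1 : ℝ) - w) ^ 2))
      + (9835084086624 / 115856201 : ℝ) * ((x - (41 / 100 : ℝ)) ^ 1 * ((41 / 50 : ℝ) - x) ^ 5 * ((w - (1 / 2 : ℝ)) ^ 1 * ((1 : ℝ) - w) ^ 1))
      + (480067272000000 / 4750104241 : ℝ) * ((x - (41 / 100 : ℝ)) ^ 1 * ((41 / 50 : ℝ) - x) ^ 5 * ((w - (1 / 2 : ℝ)) ^ 2 * ((1 : ℝ) - w) ^ 0))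
      + (1582189636558440 / 4750104241 : ℝ) * ((x - (41 / 100 : ℝ)) ^ 2 * ((41 / 50 : ℝ) - x) ^ 4 * ((w - (1 / 2 : ℝ)) ^ 0 * ((1 : ℝ) - w) ^ 2))
      + (40884539953120 / 115856201 : ℝ) * ((x - (41 / 100 : ℝ)) ^ 2 * ((41 / 50 : ℝ) - x) ^ 4 * ((w - (1 / 2 : ℝ)) ^ 1 * ((1 : ℝ) - w) ^ 1))
      + (1337006664000000 / 4750104241 : ℝ) * ((x - (41 / 100 : ℝ)) ^ 2 * ((41 / 50 : ℝ) - x) ^ 4 * ((w - (1 / 2 : ℝ)) ^ 2 * ((1 : ℝ) - w) ^ 0))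
      + (2981924913835840 / 4750104241 : ℝ) * ((x - (41 / 100 : ℝ)) ^ 3 * ((41 / 50 : ℝ) - x) ^ 3 * ((w - (1 / 2 : ℝ)) ^ 0 * ((1 : ℝ) - w) ^ 2))
      + (93449913848320 / 115856201 : ℝ) * ((x - (41 / 100 : ℝ)) ^ 3 * ((41 / 50 : ℝ) - x) ^ 3 * ((w - (1 / 2 : ℝ)) ^ 1 * ((1 : ℝ) - w) ^ 1))
      + (2188430904000000 / 4750104241 : ℝ) * ((x - (41 / 100 : ℝ)) ^ 3 * ((41 / 50 : ℝ) - x) ^ 3 * ((w - (1 / 2 : ℝ)) ^ 2 * ((1 : ℝ) - w) ^ 0))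
      + (3049290729833760 / 4750104241 : ℝ) * ((x - (41 / 100 : ℝ)) ^ 4 * ((41 / 50 : ℝ) - x) ^ 2 * ((w - (1 / 2 : ℝ)) ^ 0 * ((1 : ℝ) - w) ^ 2))
      + (109682460612480 / 115856201 : ℝ) * ((x - (41 / 100 : ℝ)) ^ 4 * ((41 / 50 : ℝ) - x) ^ 2 * ((w - (1 / 2 : ℝ)) ^ 1 * ((1 : ℝ) - w) ^ 1))
      + (2146613328000000 / 4750104241 : ℝ) * ((x - (41 / 100 : ℝ)) ^ 4 * ((41 / 50 : ℝ) - x) ^ 2 * ((w - (1 / 2 : ℝ)) ^ 2 * ((1 : ℝ) - w) ^ 0))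
      + (1491298349179008 / 4750104241 : ℝ) * ((x - (41 / 100 : ℝ)) ^ 5 * ((41 / 50 : ℝ) - x) ^ 1 * ((w - (1 / 2 : ℝ)) ^ 0 * ((1 : ℝ) - w) ^ 2))
      + (60412140265984 / 115856201 : ℝ) * ((x - (41 / 100 : ℝ)) ^ 5 * ((41 / 50 : ℝ) - x) ^ 1 * ((w - (1 / 2 : ℝ)) ^ 1 * ((1 : ℝ) - w) ^ 1))
      + (1154549088000000 / 4750104241 : ℝ) * ((x - (41 / 100 : ℝ)) ^ 5 * ((41 / 50 : ℝ) - x) ^ 1 * ((w - (1 / 2 : ℝ)) ^ 2 * ((1 : ℝ) - w) ^ 0))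
      + (239664067646336 / 4750104241 : ℝ) * ((x - (41 / 100 : ℝ)) ^ 6 * ((41 / 50 : ℝ) - x) ^ 0 * ((w - (1 / 2 : ℝ)) ^ 0 * ((1 : ℝ) - w) ^ 2))
      + (11529562915328 / 115856201 : ℝ) * ((x - (41 / 100 : ℝ)) ^ 6 * ((41 / 50 : ℝ) - x) ^ 0 * ((w - (1 / 2 : ℝ)) ^ 1 * ((1 : ℝ) - w) ^ 1))
      + (259606464000000 / 4750104241 : ℝ) * ((x - (41 / 100 : ℝ)) ^ 6 * ((41 / 50 : ℝ) - x) ^ 0 * ((w - (1 / 2 : ℝ)) ^ 2 * ((1 : ℝ) - w) ^ 0)) := by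
    simp only [g1]
    ring
  suffices 0 ≤ 320 - g1 x w by linarith
  rw [e]
  repeat' apply add_nonneg
  all_goals exact mul_nonneg (by norm_num) (mul_nonneg
    (mul_nonneg (pow_nonneg (sub_nonneg.2 ha) _) (pow_nonneg (sub_nonneg.2 hb) _))
    (mul_nonneg (pow_nonneg (sub_nonneg.2 hc) _) (pow_nonneg (sub_nonneg.2 hd) _)))

theorem g0_box0 {x w : ℝ} (ha : (-41 / 100 : ℝ) ≤ x) (hb : x ≤ (41 / 100 : ℝ)) (hc : (0 : ℝ) ≤ w) (hd : w ≤ (1 : ℝ)) :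
    g0 x w ≤ 320 := by
  have e : 320 - g0 x w =
      (9927 / 82 : ℝ) * ((x - (-41 / 100 : ℝ)) ^ 0 * ((41 / 100 : ℝ) - x) ^ 1 * ((w - (0 : ℝ)) ^ 0 * ((1 : ℝ) - w) ^ 3))
      + (19821 / 41 : ℝ) * ((x - (-41 / 100 : ℝ)) ^ 0 * ((41 / 100 : ℝ) - x) ^ 1 * ((w - (0 : ℝ)) ^ 1 * ((1 : ℝ) - w) ^ 2))
      + (27696 / 41 : ℝ) * ((x - (-41 / 100 : ℝ)) ^ 0 * ((41 / 100 : ℝ) - x) ^ 1 * ((w - (0 : ℝ)) ^ 2 * ((1 : ℝ) - w) ^ 1))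
      + (993 / 41 : ℝ) * ((x - (-41 / 100 : ℝ)) ^ 0 * ((41 / 100 : ℝ) - x) ^ 1 * ((w - (0 : ℝ)) ^ 3 * ((1 : ℝ) - w) ^ 0))
      + (6073 / 82 : ℝ) * ((x - (-41 / 100 : ℝ)) ^ 1 * ((41 / 100 : ℝ) - x) ^ 0 * ((w - (0 : ℝ)) ^ 0 * ((1 : ℝ) - w) ^ 3))
      + (13179 / 41 : ℝ) * ((x - (-41 / 100 : ℝ)) ^ 1 * ((41 / 100 : ℝ) - x) ^ 0 * ((w - (0 : ℝ)) ^ 1 * ((1 : ℝ) - w) ^ 2))
      + (19004 / 41 : ℝ) * ((x - (-41 / 100 : ℝ)) ^ 1 * ((41 / 100 : ℝ) - x) ^ 0 * ((w - (0 : ℝ)) ^ 2 * ((1 : ℝ) - w) ^ 1))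
      + (3207 / 41 : ℝ) * ((x - (-41 / 100 : ℝ)) ^ 1 * ((41 / 100 : ℝ) - x) ^ 0 * ((w - (0 : ℝ)) ^ 3 * ((1 : ℝ) - w) ^ 0)) := by
    simp only [g0]
    ring
  suffices 0 ≤ 320 - g0 x w by linarith
  rw [e]
  repeat' apply add_nonneg
  all_goals exact mul_nonneg (by norm_num) (mul_nonneg
    (mul_nonneg (pow_nonneg (sub_nonneg.2 ha) _) (pow_nonneg (sub_nonneg.2 hb) _))
    (mul_nonneg (pow_nonneg (sub_nonneg.2 hc) _) (pow_nonneg (sub_nonneg.2 hd) _)))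

theorem g1_le {x w : ℝ} (ha : -(41 / 50 : ℝ) ≤ x) (hb : x ≤ 41 / 50) (hc : 0 ≤ w) (hd : w ≤ 1) :
    g1 x w ≤ 320 := by
  rcases le_total x 0 with h | h
  · exact g1_box0 (by linarith) h hc hd
  rcases le_total w (1 / 2) with h2 | h2
  · exact g1_box1 h hb hc h2
  rcases le_total x (41 / 100) with h3 | h3
  · exact g1_box2 h h3 h2 hd
  · exact g1_box3 h3 hb h2 hd

end Vale.Agent.P098.Exact.D4
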