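import Vale.Agent.P098.Exact.Restrict
import Vale.Agent.P098.Exact.D4.Scalar
import Vale.Agent.P098.Exact.D5.Cert

/-! The certificate in dimension four, as the restriction of the one in dimension five. -/

noncomputable section

namespace Vale.Agent.P098.Exact.D4

open Matrix

section Pad

variable {d : ℕ} (j q : Jet d)

theorem sqA_emb : sqA (emb j) = sqA j := by
  simp [sqA, emb_apply, Fin.sum_univ_castSucc, padM_cast, padM_last, padM_last']

theorem t3_emb : t3 (emb j) = t3 j := by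
  simp [t3, emb_apply, Fin.sum_univ_castSucc, padM_cast, padM_last, padM_last']

theorem p0_emb : p0 (emb j) = p0 j := by
  simp [p0, emb_apply, Fin.sum_univ_castSucc, padV_cast, padV_last]

theorem p1_emb : p1 (emb j) = p1 j := by
  simp [p1, emb_apply, Fin.sum_univ_castSucc, padV_cast, padV_last, padM_cast, padM_last']

theorem val_emb (f : Form) : f.val (emb j) (emb q) = f.val j q := by
  cases f <;> simp [Form.val, emb_apply, Fin.sum_univ_castSucc, padV_cast, padV_last, padM_cast,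
    padM_last, padM_last']

theorem omV_emb (al : ℝ) (L : List Term) : omV al L (emb j) (emb q) = omV al L j q := by
  induction L with
  | nil => simp [omV]
  | cons t L ih =>
    simp only [omV, List.map_cons, List.sum_cons] at ih ⊢
    rw [ih]
    simp only [Term.val, Term.mon, sqA_emb, t3_emb, p0_emb, p1_emb, val_emb]
    rfl

theorem Kf_emb (al : ℝ) : Kf al (emb j) = Kf al j := by simp [Kf, sqA_emb]

end Pad

/-- The bound in the eigenframe, before scaling. -/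
def rhs (l v : Fin 4 → ℝ) : ℝ :=
  g0 (∑ i, l i ^ 3) (v 3) + ∑ i, v i ^ 2 * (if i = 3 then 0 else
    -23 + 31 * l i + 137 * (∑ i, l i ^ 3) + (∑ i, l i ^ 3) * (-108 + 41 * l i)
      + 289 * l i - 125 * l i ^ 2 - 410 * l i ^ 3 + 154 * (∑ i, l i ^ 3) * l i ^ 3
      - v 3 * (-175) - v 3 * 151 * (∑ i, l i ^ 3))

theorem frame_value (l v : Fin 4 → ℝ) (h3 : l 3 = 0) (hq : ∑ i, l i ^ 2 = 1) :
    256 * omV D5.al D5.table (jet0 l v)
      ((fun i m => if i = m then l i else 0, 0, -v 3) : Jet 4) = rhs l v := by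
  rw [Fin.sum_univ_four] at hq
  rw [h3] at hq
  have hlast : Fin.last 3 = (3 : Fin 4) := rfl
  have hs : sqA (jet0 l v) = 1 := by
    simp [sqA, jet0, Fin.sum_univ_four, h3]
    linarith
  have ht : t3 (jet0 l v) = ∑ i, l i ^ 3 := by
    simp [t3, jet0, Fin.sum_univ_four, h3]
    ring
  have h0 : p0 (jet0 l v) = v 0 ^ 2 + v 1 ^ 2 + v 2 ^ 2 + v 3 ^ 2 := by
    simp [p0, jet0, Fin.sum_univ_four]
  have h1 : p1 (jet0 l v) = v 0 ^ 2 * l 0 + v 1 ^ 2 * l 1 + v 2 ^ 2 * l 2 := by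
    simp [p1, jet0, Fin.sum_univ_four, h3]
    ring
  obtain ⟨q, hqe⟩ : ∃ q : Jet 4, q = (fun i m => if i = m then l i else 0, 0, -v 3) := ⟨_, rfl⟩
  rw [← hqe]
  have fa1 : Form.a1.val (jet0 l v) q = 1 := by
    simp [Form.val, jet0, hqe, Fin.sum_univ_four, h3]
    linarith
  have fa2 : Form.a2.val (jet0 l v) q = ∑ i, l i ^ 3 := by
    simp [Form.val, jet0, hqe, Fin.sum_univ_four, h3]
    ring
  have fs0 : Form.s0.val (jet0 l v) q = v 0 ^ 2 * l 0 + v 1 ^ 2 * l 1 + v 2 ^ 2 * l 2 := by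
    simp [Form.val, jet0, hqe, Fin.sum_univ_four, h3]
    ring
  have fs1 : Form.s1.val (jet0 l v) q =
      v 0 ^ 2 * l 0 ^ 2 + v 1 ^ 2 * l 1 ^ 2 + v 2 ^ 2 * l 2 ^ 2 := by
    simp [Form.val, jet0, hqe, Fin.sum_univ_four, h3]
    ring
  have fs2 : Form.s2.val (jet0 l v) q =
      v 0 ^ 2 * l 0 ^ 3 + v 1 ^ 2 * l 1 ^ 3 + v 2 ^ 2 * l 2 ^ 3 := by
    simp [Form.val, jet0, hqe, Fin.sum_univ_four, h3]
    ring
  have fu0 : Form.u0.val (jet0 l v) q = 0 := by simp [Form.val, hqe]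
  have fu1 : Form.u1.val (jet0 l v) q = 0 := by simp [Form.val, hqe]
  have fu2 : Form.u2.val (jet0 l v) q = 0 := by simp [Form.val, hqe]
  have fdw : Form.dw.val (jet0 l v) q = -v 3 := by simp [Form.val, hqe]
  have hw : (jet0 l v).2.2 = v 3 := rfl
  simp only [omV, D5.table, List.map_cons, List.map_nil, List.sum_cons, List.sum_nil, Term.val,
    Term.mon, hs, Real.one_rpow, ht, h0, h1, hw, fa1, fa2, fs0, fs1, fs2, fu0, fu1, fu2, fdw,
    rhs, g0, Fin.sum_univ_four, h3]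
  simp
  ring

theorem frame_bound (l v : Fin 4 → ℝ) (h3 : l 3 = 0) (hs : ∑ i, l i = 0)
    (hq : ∑ i, l i ^ 2 = 1) (hv : ∑ i, v i ^ 2 ≤ 1) (hw : 0 ≤ v 3) : rhs l v ≤ 320 := by
  obtain ⟨t, ht⟩ : ∃ t, t = ∑ i, l i ^ 3 := ⟨_, rfl⟩
  have ht' := ht
  rw [Fin.sum_univ_four] at hs hq hv ht'
  rw [h3] at hs hq ht'
  have key : ∀ a b c : ℝ, a + b + c = 0 → a ^ 2 + b ^ 2 + c ^ 2 = 1 → t = a ^ 3 + b ^ 3 + c ^ 3 →
      t = 3 * a * (2 * a ^ 2 - 1) / 2 ∧ -(41 / 50 : ℝ) ≤ a ∧ a ≤ 41 / 50 ∧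
        g1 a (v 3) = g0 t (v 3) + (1 - v 3 ^ 2) * (-23 + 31 * a + 137 * t + t * (-108 + 41 * a)
          + 289 * a - 125 * a ^ 2 - 410 * a ^ 3 + 154 * t * a ^ 3
          - v 3 * (-175) - v 3 * 151 * t) := by
    intro a b c e1 e2 e3
    have hc : c = -a - b := by linarith
    subst hc
    have hm : b ^ 2 + a * b + a ^ 2 = 1 / 2 := by linarith
    have et : t = 3 * a * (2 * a ^ 2 - 1) / 2 := by
      rw [e3]
      linear_combination (-3 * a) * hm
    have ha : a ^ 2 ≤ 2 / 3 := by nlinarith [sq_nonneg (2 * b + a)]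
    refine ⟨et, by nlinarith, by nlinarith, ?_⟩
    rw [et]
    simp only [g0, g1]
    ring
  obtain ⟨e0, a0, b0, f0⟩ := key (l 0) (l 1) (l 2) (by linarith) (by linarith) (by linarith)
  obtain ⟨-, a1, b1, f1⟩ := key (l 1) (l 0) (l 2) (by linarith) (by linarith) (by linarith)
  obtain ⟨-, a2, b2, f2⟩ := key (l 2) (l 0) (l 1) (by linarith) (by linarith) (by linarith)
  have htb : t ^ 2 ≤ (41 / 100 : ℝ) ^ 2 := by
    have h := mul_nonneg (show 0 ≤ 2 / 3 - l 0 ^ 2 by nlinarith [sq_nonneg (l 1 - l 2)])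
      (sq_nonneg (l 0 ^ 2 - 1 / 6))
    rw [e0]
    linarith
  obtain ⟨htl, htu⟩ := abs_le.1 (abs_le_of_sq_le_sq htb (by norm_num))
  have hw1 : v 3 ≤ 1 := by
    have : v 3 ^ 2 ≤ 1 := by linarith [sq_nonneg (v 0), sq_nonneg (v 1), sq_nonneg (v 2)]
    exact (sq_le_one_iff₀ hw).1 this
  have hG0 := g0_box0 (by linarith) htu hw hw1
  have hr : rhs l v = g0 t (v 3) +
      (v 0 ^ 2 * (-23 + 31 * l 0 + 137 * t + t * (-108 + 41 * l 0)
          + 289 * l 0 - 125 * l 0 ^ 2 - 410 * l 0 ^ 3 + 154 * t * l 0 ^ 3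
          - v 3 * (-175) - v 3 * 151 * t) +
        v 1 ^ 2 * (-23 + 31 * l 1 + 137 * t + t * (-108 + 41 * l 1)
          + 289 * l 1 - 125 * l 1 ^ 2 - 410 * l 1 ^ 3 + 154 * t * l 1 ^ 3
          - v 3 * (-175) - v 3 * 151 * t) +
        v 2 ^ 2 * (-23 + 31 * l 2 + 137 * t + t * (-108 + 41 * l 2)
          + 289 * l 2 - 125 * l 2 ^ 2 - 410 * l 2 ^ 3 + 154 * t * l 2 ^ 3
          - v 3 * (-175) - v 3 * 151 * t)) := by
    rw [rhs, ← ht, Fin.sum_univ_four]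
    simp
  have hu : 0 ≤ 1 - v 3 ^ 2 - (v 0 ^ 2 + v 1 ^ 2 + v 2 ^ 2) := by linarith
  by_cases hu0 : 1 - v 3 ^ 2 = 0
  · have h0 : v 0 ^ 2 = 0 := by linarith [sq_nonneg (v 0), sq_nonneg (v 1), sq_nonneg (v 2)]
    have h1 : v 1 ^ 2 = 0 := by linarith [sq_nonneg (v 0), sq_nonneg (v 1), sq_nonneg (v 2)]
    have h2 : v 2 ^ 2 = 0 := by linarith [sq_nonneg (v 0), sq_nonneg (v 1), sq_nonneg (v 2)]
    rw [hr, h0, h1, h2]
    linarith
  · have hu1 : 0 < 1 - v 3 ^ 2 := lt_of_le_of_ne (by linarith [sq_nonneg (v 0), sq_nonneg (v 1), sq_nonneg (v 2)]) (Ne.symm hu0)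
    have k0 := mul_le_mul_of_nonneg_left (g1_le a0 b0 hw hw1) (sq_nonneg (v 0))
    have k1 := mul_le_mul_of_nonneg_left (g1_le a1 b1 hw hw1) (sq_nonneg (v 1))
    have k2 := mul_le_mul_of_nonneg_left (g1_le a2 b2 hw hw1) (sq_nonneg (v 2))
    have k3 := mul_le_mul_of_nonneg_left hG0 hu
    rw [f0] at k0
    rw [f1] at k1
    rw [f2] at k2
    refine le_of_mul_le_mul_left ?_ hu1
    rw [hr]
    linarith

/-- The slack inequality of the restriction. -/
theorem slack (x : Fin 4 → ℝ) (A : Fin 4 → Fin 4 → ℝ) (v : Fin 4 → ℝ) (w : ℝ)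
    (hx : ∑ i, x i ^ 2 = 1) (hA : A ≠ 0) (hAs : ∀ i j, A i j = A j i) (hAt : ∑ i, A i i = 0)
    (hAx : ∀ j, ∑ i, x i * A i j = 0) (hv : ∑ i, v i ^ 2 ≤ 1) (hw : w = ∑ i, x i * v i)
    (hw0 : 0 ≤ w) :
    omV D5.al D5.table ((A, v, w) : Jet 4) ((A, 0, -w) : Jet 4) ≤
      5 / 4 * Kf D5.al ((A, v, w) : Jet 4) := by
  have hxd : x ⬝ᵥ x = 1 := by simpa [dotProduct, sq] using hx
  have hAxd : (Matrix.of A) *ᵥ x = 0 := by
    funext i
    rw [Pi.zero_apply, ← hAx i]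
    show ∑ k, A i k * x k = _
    exact Finset.sum_congr rfl fun k _ => by rw [hAs k i, mul_comm]
  obtain ⟨U, l1, hU, hU', hUx, hl1, hdiag⟩ := exists_frame (Matrix.of A) hAs x hxd hAxd
  obtain ⟨σ, hσdef⟩ : ∃ σ, σ = Real.sqrt (sqA ((A, v, w) : Jet 4)) := ⟨_, rfl⟩
  have hσ : 0 < σ := hσdef ▸ Real.sqrt_pos.2 (sqA_pos (j := (A, v, w)) hA)
  have hσ2 : σ ^ 2 = sqA ((A, v, w) : Jet 4) := by
    rw [hσdef, Real.sq_sqrt (sqA_pos (j := (A, v, w)) hA).le]
  obtain ⟨l, hl⟩ : ∃ l : Fin 4 → ℝ, ∀ i, l i = l1 i / σ := ⟨_, fun i => rfl⟩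
  obtain ⟨v0, hv0⟩ : ∃ v0 : Fin 4 → ℝ, v0 = Uᵀ *ᵥ v := ⟨_, rfl⟩
  have hUv : U *ᵥ v0 = v := by rw [hv0, Matrix.mulVec_mulVec, hU', Matrix.one_mulVec]
  have hv0last : v0 (Fin.last 3) = w := by
    rw [hv0, hw]
    show ∑ i, U i (Fin.last 3) * v i = _
    exact Finset.sum_congr rfl fun i _ => by rw [hUx]
  have hAeq : Matrix.of A = U * Matrix.diagonal l1 * Uᵀ := by
    rw [← hdiag, Matrix.mul_assoc, hU', Matrix.mul_one]
  have hd : ∀ i k, σ * (U * Matrix.of (fun i m => if i = m then l i else 0) * Uᵀ) i k = A i k := by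
    intro i k
    have hm : Matrix.of (fun i m => if i = m then l i else 0) = σ⁻¹ • Matrix.diagonal l1 := by
      ext a b
      by_cases h : a = b <;> simp [h, hl, div_eq_inv_mul]
    rw [hm, Matrix.mul_smul, Matrix.smul_mul, ← hAeq, Matrix.smul_apply, smul_eq_mul,
      ← mul_assoc, mul_inv_cancel₀ hσ.ne', one_mul, Matrix.of_apply]
  have hjet : lam U σ (jet0 l v0) = (A, v, w) :=
    Prod.ext (funext fun i => funext fun k => hd i k) (Prod.ext hUv hv0last)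
  have hq : lam U σ ((fun i m => if i = m then l i else 0, 0, -v0 3) : Jet 4) = (A, 0, -w) := by
    refine Prod.ext (funext fun i => funext fun k => hd i k) (Prod.ext ?_ ?_)
    · simp [lam]
    · show -v0 3 = -w
      rw [← hv0last]
      rfl
  have hne0 : (jet0 l v0).1 ≠ 0 := by
    intro h
    apply hA
    have := congrArg Prod.fst hjet
    simp only at this
    rw [← this]
    funext i k
    have hm : mat (jet0 l v0) = 0 := by ext a b; exact congrFun (congrFun h a) b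
    simp [lam, hm]
  have hs1 : sqA (jet0 l v0) = 1 := by
    have h := sqA_smul (lam U 1 (jet0 l v0)) σ
    rw [← lam_eq, hjet, sqA_orth hU, ← hσ2] at h
    exact mul_left_cancel₀ (pow_ne_zero 2 hσ.ne') (h.symm.trans (mul_one (σ ^ 2)).symm)
  have hl3 : l 3 = 0 := by
    rw [hl]
    exact (congrArg (· / σ) hl1).trans (zero_div _)
  have hlq : ∑ i, l i ^ 2 = 1 := by
    rw [← hs1]
    simp [sqA, jet0]
  have hls : ∑ i, l i = 0 := by
    have h : (Uᵀ * Matrix.of A * U).trace = (Matrix.of A).trace := by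
      rw [Matrix.trace_mul_comm, ← Matrix.mul_assoc, hU', Matrix.one_mul]
    rw [Matrix.mul_assoc, hdiag, ← Matrix.mul_assoc, hU, Matrix.one_mul, Matrix.trace_diagonal,
      show (Matrix.of A).trace = ∑ i, A i i from rfl, hAt] at h
    simp only [hl, ← Finset.sum_div, h, zero_div]
  have hvq : ∑ i, v0 i ^ 2 ≤ 1 := by
    rw [show ∑ i, v0 i ^ 2 = v0 ⬝ᵥ v0 by simp [dotProduct, sq], ← dot_mulVec_orth hU, hUv]
    simpa [dotProduct, sq] using hv
  have hb := frame_bound l v0 hl3 hls hlq hvq (by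
    have : v0 3 = w := hv0last
    rw [this]
    exact hw0)
  rw [← frame_value l v0 hl3 hlq] at hb
  have hc : 0 < σ ^ (2 * D5.al) := Real.rpow_pos_of_pos hσ _
  rw [← hq, ← hjet, omV_lam hU D5.al D5.table hσ hne0, Kf_lam hU D5.al hσ hne0, Kf, hs1,
    Real.one_rpow]
  have hmul := mul_le_mul_of_nonneg_left hb hc.le
  linarith

/-- The certificate in dimension four. -/
def certOf (δ : ℝ) (hδ : 0 < δ)
    (hQ : ∀ (l v : Fin 5 → ℝ) (τ : Fin 5 → Fin 5 → Fin 5 → ℝ) (a : ℝ),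
      Admissible l v τ → 0 ≤ a → δ ≤ Qval D5.al D5.table l v τ a 1) : Cert 4 :=
  restrict (D5.certOf δ hδ hQ) fun x A v w hx hA hAs hAt hAx hv hw hw0 => by
    show omCLM D5.al D5.table (emb (A, v, w)) (emb (A, 0, -w)) ≤ _ * Kf D5.al (emb (A, v, w))
    rw [omCLM_apply, omV_emb, Kf_emb]
    refine (slack x A v w hx hA hAs hAt hAx hv hw hw0).trans_eq ?_
    norm_num

end Vale.Agent.P098.Exact.D4
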